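import Vale.Agent.P284.H513.Mol3
import Vale.Agent.P284.H894.V.Spec
import Mathlib.Algebra.Order.Chebyshev

/-!
# P284, block V11 (helper513): representation formulas II, pointwise bounds
-/

open scoped ContDiff Topology ComplexConjugate
open MeasureTheory Set Filter Metric

noncomputable section

namespace Vale.Agent.P284.H513.V

open Vale.Agent.P272.K Vale.Agent.P272.K.INT Vale.Agent.P284.H894.V

variable {n : ℕ}

lemma contDiff_cHess {f : Cm n → ℝ} {k : WithTop ℕ∞} (hf : ContDiff ℝ (k + 1 + 1) f) (i j : Fin n) :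
    ContDiff ℝ k fun y => cHess f y i j :=
  contDiff_dz (contDiff_dzb (Complex.ofRealCLM.contDiff.comp hf) le_rfl j) le_rfl i

section

variable {δ : ℝ} {η Θ : Cm n → ℝ} (m : Mol δ η Θ)

include m

lemma Mol.int_η {W : Cm n → ℂ} (hW : Continuous W) : Integrable fun t => (η t : ℂ) * W t :=
  ((Complex.continuous_ofReal.comp m.smooth.continuous).mul hW).integrable_of_hasCompactSupport
    (HasCompactSupport.mul_right (m.hcs.comp_left Complex.ofReal_zero))

lemma Mol.int_Θ {W : Cm n → ℂ} (hW : Continuous W) : Integrable fun t => (Θ t : ℂ) * W t :=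
  ((Complex.continuous_ofReal.comp m.th1.continuous).mul hW).integrable_of_hasCompactSupport
    (HasCompactSupport.mul_right (m.hcsΘ.comp_left Complex.ofReal_zero))

/-- the radial derivative -/
lemma Mol.radial {g : Cm n → ℂ} (hg : ContDiff ℝ 1 g) (z : Cm n) (s : ℝ) :
    ∫ t, (η t : ℂ) * fderiv ℝ g (z + s • t) t =
      ∑ j, ((∫ t, (η t : ℂ) * (t j * dz j g (z + s • t))) +
        ∫ t, (η t : ℂ) * (conj (t j) * dzb j g (z + s • t))) := by
  have c1 : ∀ j, Continuous (dz j g) := fun j => (contDiff_dz (m := 0) hg (by norm_num) j).continuous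
  have c2 : ∀ j, Continuous (dzb j g) := fun j =>
    (contDiff_dzb (m := 0) hg (by norm_num) j).continuous
  have i1 : ∀ j, Integrable fun t : Cm n => (η t : ℂ) * (t j * dz j g (z + s • t)) := fun j =>
    m.int_η ((continuous_apply j).mul ((c1 j).comp (by fun_prop)))
  have i2 : ∀ j, Integrable fun t : Cm n => (η t : ℂ) * (conj (t j) * dzb j g (z + s • t)) :=
    fun j => m.int_η ((Complex.continuous_conj.comp (continuous_apply j)).mul
      ((c2 j).comp (by fun_prop)))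
  have e : ∀ t : Cm n, (η t : ℂ) * fderiv ℝ g (z + s • t) t =
      ∑ j, ((η t : ℂ) * (t j * dz j g (z + s • t)) +
        (η t : ℂ) * (conj (t j) * dzb j g (z + s • t))) := by
    intro t
    rw [fderiv_apply, Finset.mul_sum]
    exact Finset.sum_congr rfl fun j _ => by ring
  simp only [e]
  have i3 : ∀ j, Integrable fun t : Cm n => (η t : ℂ) * (t j * dz j g (z + s • t)) +
      (η t : ℂ) * (conj (t j) * dzb j g (z + s • t)) := fun j => (i1 j).add (i2 j)
  rw [integral_finsetSum _ fun j _ => i3 j]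
  exact Finset.sum_congr rfl fun j _ => integral_add (i1 j) (i2 j)

/-- representation of `mo f - f` by the Hessian -/
lemma Mol.rep0 {f : Cm n → ℝ} (hf : ContDiff ℝ 4 f) (z : Cm n) :
    mv η (fun y => (f y : ℂ)) z - f z = ∫ p in KK n δ, (Θ p.2 : ℂ) *
      (2 * p.1 * ∑ j, cHess f (z + p.1 • p.2) j j) := by
  set g : Cm n → ℂ := fun y => (f y : ℂ) with hgdef
  have hg : ContDiff ℝ 4 g := Complex.ofRealCLM.contDiff.comp hf
  have hg1 : ContDiff ℝ 1 g := hg.of_le (by norm_num)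
  have hη : Continuous η := m.smooth.continuous
  have hH : ∀ j, Continuous fun y => cHess f y j j := fun j =>
    (contDiff_cHess (k := 0) (hf.of_le (by norm_num)) j j).continuous
  have hg' : Continuous (fderiv ℝ g) := hg1.continuous_fderiv (by norm_num)
  have e0 : (f z : ℂ) = g z := rfl
  rw [e0, m.taylor hg1]
  rw [KK_t (W := fun p => (η p.2 : ℂ) * fderiv ℝ g (z + p.1 • p.2) p.2)
    ((Complex.continuous_ofReal.comp (hη.comp continuous_snd)).mul
      ((hg'.comp (by fun_prop)).clm_apply continuous_snd))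
    (fun s t ht => by simp [m.zero t ht])]
  have cW : Continuous fun p : ℝ × Cm n => (Θ p.2 : ℂ) *
      (2 * p.1 * ∑ j, cHess f (z + p.1 • p.2) j j) := by
    refine (Complex.continuous_ofReal.comp (m.th1.continuous.comp continuous_snd)).mul
      ((continuous_const.mul (Complex.continuous_ofReal.comp continuous_fst)).mul ?_)
    exact continuous_finsetSum _ fun j _ => (hH j).comp (by fun_prop)
  rw [KK_t (W := fun p => (Θ p.2 : ℂ) * (2 * p.1 * ∑ j, cHess f (z + p.1 • p.2) j j)) cW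
    (fun s t ht => by simp [m.thz t ht])]
  refine setIntegral_congr_fun measurableSet_Icc fun s _ => ?_
  change ∫ t, (η t : ℂ) * fderiv ℝ g (z + s • t) t = ∫ t, (Θ t : ℂ) *
      (2 * s * ∑ j, cHess f (z + s • t) j j)
  rw [m.radial hg1]
  have e1 : ∀ j, (∫ t, (η t : ℂ) * (t j * dz j g (z + s • t))) +
        ∫ t, (η t : ℂ) * (conj (t j) * dzb j g (z + s • t)) =
        ∫ t, (Θ t : ℂ) * (2 * s * cHess f (z + s • t) j j) := by
    intro j
    rw [m.ibp_b (contDiff_dz hg (m := 1) (by norm_num) j),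
      m.ibp (contDiff_dzb hg (m := 1) (by norm_num) j)]
    have e2 : ∀ y, dzb j (dz j g) y = cHess f y j j := fun y =>
      (INT.dz_dzb_comm ((hg.of_le (by norm_num)).contDiffAt)).symm
    have e3 : ∀ y, dz j (dzb j g) y = cHess f y j j := fun y => rfl
    simp only [e2, e3]
    have hc : Continuous fun t : Cm n => (s : ℂ) * cHess f (z + s • t) j j :=
      continuous_const.mul ((hH j).comp (by fun_prop))
    rw [← integral_add (m.int_Θ hc) (m.int_Θ hc)]
    refine integral_congr_ae (Eventually.of_forall fun t => ?_)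
    ring
  simp only [e1]
  have i4 : ∀ j, Integrable fun t : Cm n => (Θ t : ℂ) * (2 * s * cHess f (z + s • t) j j) :=
    fun j => m.int_Θ (continuous_const.mul ((hH j).comp (by fun_prop)))
  rw [← integral_finsetSum _ fun j _ => i4 j]
  refine integral_congr_ae (Eventually.of_forall fun t => ?_)
  simp only [Finset.mul_sum]

/-- representation of `∂_i (mo f - f)` by the Hessian -/
lemma Mol.rep1 {f : Cm n → ℝ} (hf : ContDiff ℝ 4 f) (i : Fin n) (z : Cm n) :
    mv η (dz i fun y => (f y : ℂ)) z - dz i (fun y => (f y : ℂ)) z =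
      ∫ p in KK n δ, (η p.2 : ℂ) * (2 * ∑ j, conj (p.2 j) * cHess f (z + p.1 • p.2) i j) := by
  set g : Cm n → ℂ := dz i fun y => (f y : ℂ) with hgdef
  have hfc : ContDiff ℝ 4 fun y => (f y : ℂ) := Complex.ofRealCLM.contDiff.comp hf
  have hg : ContDiff ℝ 3 g := contDiff_dz hfc (by norm_num) i
  have hg1 : ContDiff ℝ 1 g := hg.of_le (by norm_num)
  have hη : Continuous η := m.smooth.continuous
  have hH : ∀ j, Continuous fun y => cHess f y i j := fun j =>
    (contDiff_cHess (k := 0) (hf.of_le (by norm_num)) i j).continuous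
  have hg' : Continuous (fderiv ℝ g) := hg1.continuous_fderiv (by norm_num)
  rw [m.taylor hg1]
  rw [KK_t (W := fun p => (η p.2 : ℂ) * fderiv ℝ g (z + p.1 • p.2) p.2)
    ((Complex.continuous_ofReal.comp (hη.comp continuous_snd)).mul
      ((hg'.comp (by fun_prop)).clm_apply continuous_snd))
    (fun s t ht => by simp [m.zero t ht])]
  have cW : Continuous fun p : ℝ × Cm n => (η p.2 : ℂ) *
      (2 * ∑ j, conj (p.2 j) * cHess f (z + p.1 • p.2) i j) := by
    refine (Complex.continuous_ofReal.comp (hη.comp continuous_snd)).mul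
      (continuous_const.mul ?_)
    refine continuous_finsetSum _ fun j _ => ?_
    exact (Complex.continuous_conj.comp ((continuous_apply j).comp continuous_snd)).mul
      ((hH j).comp (by fun_prop))
  rw [KK_t (W := fun p => (η p.2 : ℂ) * (2 * ∑ j, conj (p.2 j) * cHess f (z + p.1 • p.2) i j)) cW
    (fun s t ht => by simp [m.zero t ht])]
  refine setIntegral_congr_fun measurableSet_Icc fun s _ => ?_
  change ∫ t, (η t : ℂ) * fderiv ℝ g (z + s • t) t = ∫ t, (η t : ℂ) *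
      (2 * ∑ j, conj (t j) * cHess f (z + s • t) i j)
  rw [m.radial hg1]
  have e1 : ∀ j, (∫ t, (η t : ℂ) * (t j * dz j g (z + s • t))) +
        ∫ t, (η t : ℂ) * (conj (t j) * dzb j g (z + s • t)) =
        ∫ t, (η t : ℂ) * (2 * (conj (t j) * cHess f (z + s • t) i j)) := by
    intro j
    rw [m.ibp_b (contDiff_dz hg (m := 1) (by norm_num) j)]
    have e2 : ∀ y, dzb j (dz j g) y = dz j (dzb j g) y := fun y =>
      (INT.dz_dzb_comm ((hg.of_le (by norm_num)).contDiffAt)).symm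
    simp only [e2]
    rw [← m.ibp (contDiff_dzb hg (m := 1) (by norm_num) j)]
    have e3 : ∀ y, dzb j g y = cHess f y i j := fun y => 
      (INT.dz_dzb_comm ((hfc.of_le (by norm_num)).contDiffAt)).symm
    simp only [e3]
    have hc : Continuous fun t : Cm n => conj (t j) * cHess f (z + s • t) i j :=
      (Complex.continuous_conj.comp (continuous_apply j)).mul ((hH j).comp (by fun_prop))
    rw [← integral_add (m.int_η hc) (m.int_η hc)]
    refine integral_congr_ae (Eventually.of_forall fun t => ?_)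
    ring
  simp only [e1]
  have i4 : ∀ j, Integrable fun t : Cm n => (η t : ℂ) * (2 * (conj (t j) *
      cHess f (z + s • t) i j)) := fun j => m.int_η (continuous_const.mul
    ((Complex.continuous_conj.comp (continuous_apply j)).mul ((hH j).comp (by fun_prop))))
  rw [← integral_finsetSum _ fun j _ => i4 j]
  refine integral_congr_ae (Eventually.of_forall fun t => ?_)
  simp only [Finset.mul_sum]

end

/-! ### pointwise bounds -/

lemma norm_dzb_real (f : Cm n → ℝ) (j : Fin n) (y : Cm n) :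
    ‖dzb j (fun y => (f y : ℂ)) y‖ = ‖dz j (fun y => (f y : ℂ)) y‖ := by
  have h := dzb_conj (F := fun y => (f y : ℂ)) (z := y) (i := j)
  simp only [Complex.conj_ofReal] at h
  rw [h]; simp

lemma norm_fderiv_le (f : Cm n → ℝ) (y v : Cm n) :
    ‖fderiv ℝ (fun y => (f y : ℂ)) y v‖ ≤ 2 * ‖v‖ * ∑ j, ‖dz j (fun y => (f y : ℂ)) y‖ := by
  rw [fderiv_apply, Finset.mul_sum]
  refine (norm_sum_le _ _).trans (Finset.sum_le_sum fun j _ => ?_)
  refine (norm_add_le _ _).trans ?_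
  rw [norm_mul, norm_mul, norm_dzb_real, RCLike.norm_conj]
  have := norm_le_pi_norm v j
  nlinarith [norm_nonneg (dz j (fun y => (f y : ℂ)) y)]

lemma sum_sq_le (a : Fin n → ℝ) : (∑ j, a j) ^ 2 ≤ n * ∑ j, a j ^ 2 := by
  have := sq_sum_le_card_mul_sum_sq (s := (Finset.univ : Finset (Fin n))) (f := a)
  simpa using this

lemma sq_fderiv_le (f : Cm n → ℝ) (y v : Cm n) {δ : ℝ} (hv : ‖v‖ ≤ δ) :
    ‖fderiv ℝ (fun y => (f y : ℂ)) y v‖ ^ 2 ≤ 4 * δ ^ 2 * n * D1 f y := by
  have h1 := norm_fderiv_le f y v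
  have h2 := sum_sq_le fun j => ‖dz j (fun y => (f y : ℂ)) y‖
  have h0 : 0 ≤ ∑ j, ‖dz j (fun y => (f y : ℂ)) y‖ := Finset.sum_nonneg fun j _ => norm_nonneg _
  have hδ : 0 ≤ δ := (norm_nonneg v).trans hv
  calc ‖fderiv ℝ (fun y => (f y : ℂ)) y v‖ ^ 2
      ≤ (2 * δ * ∑ j, ‖dz j (fun y => (f y : ℂ)) y‖) ^ 2 := by
        gcongr
        exact h1.trans (by gcongr)
    _ = 4 * δ ^ 2 * (∑ j, ‖dz j (fun y => (f y : ℂ)) y‖) ^ 2 := by ring
    _ ≤ 4 * δ ^ 2 * (n * ∑ j, ‖dz j (fun y => (f y : ℂ)) y‖ ^ 2) := by gcongr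
    _ = _ := by unfold D1; ring

lemma fderiv_ofReal {f : Cm n → ℝ} {y : Cm n} (hf : DifferentiableAt ℝ f y) (v : Cm n) :
    fderiv ℝ (fun y => (f y : ℂ)) y v = ((fderiv ℝ f y v : ℝ) : ℂ) := by
  have h : HasFDerivAt (fun y => (f y : ℂ)) (Complex.ofRealCLM.comp (fderiv ℝ f y)) y :=
    Complex.ofRealCLM.hasFDerivAt.comp y hf.hasFDerivAt
  rw [h.fderiv]; simp

lemma sq_norm_fderiv_le {f : Cm n → ℝ} {y : Cm n} (hf : DifferentiableAt ℝ f y) :
    ‖fderiv ℝ f y‖ ^ 2 ≤ 4 * n * D1 f y := by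
  have h0 : 0 ≤ ∑ j, ‖dz j (fun y => (f y : ℂ)) y‖ := Finset.sum_nonneg fun j _ => norm_nonneg _
  have h1 : ‖fderiv ℝ f y‖ ≤ 2 * ∑ j, ‖dz j (fun y => (f y : ℂ)) y‖ := by
    refine ContinuousLinearMap.opNorm_le_bound _ (by positivity) fun v => ?_
    have h2 := norm_fderiv_le f y v
    rw [fderiv_ofReal hf, Complex.norm_real] at h2
    calc _ ≤ _ := h2
      _ = _ := by ring
  have h2 := sum_sq_le fun j => ‖dz j (fun y => (f y : ℂ)) y‖
  calc ‖fderiv ℝ f y‖ ^ 2 ≤ (2 * ∑ j, ‖dz j (fun y => (f y : ℂ)) y‖) ^ 2 := by gcongr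
    _ = 4 * (∑ j, ‖dz j (fun y => (f y : ℂ)) y‖) ^ 2 := by ring
    _ ≤ 4 * (n * ∑ j, ‖dz j (fun y => (f y : ℂ)) y‖ ^ 2) := by gcongr
    _ = _ := by unfold D1; ring

lemma sq_trace_le (f : Cm n → ℝ) (y : Cm n) {s : ℝ} (hs : s ∈ Icc (0 : ℝ) 1) :
    ‖2 * (s : ℂ) * ∑ j, cHess f y j j‖ ^ 2 ≤ 4 * n * D2 f y := by
  have h1 : ‖∑ j, cHess f y j j‖ ≤ ∑ j, ‖cHess f y j j‖ := norm_sum_le _ _
  have h2 := sum_sq_le fun j => ‖cHess f y j j‖
  have h3 : ∑ j, ‖cHess f y j j‖ ^ 2 ≤ D2 f y := by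
    unfold D2
    refine Finset.sum_le_sum fun j _ => ?_
    exact Finset.single_le_sum (f := fun k => ‖cHess f y j k‖ ^ 2) (fun k _ => sq_nonneg _)
      (Finset.mem_univ j)
  rw [norm_mul, norm_mul, Complex.norm_real, Real.norm_of_nonneg hs.1, Complex.norm_ofNat]
  calc (2 * s * ‖∑ j, cHess f y j j‖) ^ 2 ≤ (2 * 1 * ∑ j, ‖cHess f y j j‖) ^ 2 := by
        have := hs.2
        have := hs.1
        gcongr
    _ = 4 * (∑ j, ‖cHess f y j j‖) ^ 2 := by ring
    _ ≤ 4 * (n * ∑ j, ‖cHess f y j j‖ ^ 2) := by gcongr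
    _ ≤ 4 * (n * D2 f y) := by gcongr
    _ = _ := by ring

lemma sq_row_le (f : Cm n → ℝ) (y t : Cm n) (i : Fin n) {δ : ℝ} (ht : ‖t‖ ≤ δ) :
    ‖2 * ∑ j, conj (t j) * cHess f y i j‖ ^ 2 ≤ 4 * δ ^ 2 * n * ∑ j, ‖cHess f y i j‖ ^ 2 := by
  have hδ : 0 ≤ δ := (norm_nonneg t).trans ht
  have h1 : ‖∑ j, conj (t j) * cHess f y i j‖ ≤ δ * ∑ j, ‖cHess f y i j‖ := by
    rw [Finset.mul_sum]
    refine (norm_sum_le _ _).trans (Finset.sum_le_sum fun j _ => ?_)
    rw [norm_mul, RCLike.norm_conj]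
    exact mul_le_mul_of_nonneg_right ((norm_le_pi_norm t j).trans ht) (norm_nonneg _)
  have h2 := sum_sq_le fun j => ‖cHess f y i j‖
  rw [norm_mul, Complex.norm_ofNat]
  calc (2 * ‖∑ j, conj (t j) * cHess f y i j‖) ^ 2 ≤ (2 * (δ * ∑ j, ‖cHess f y i j‖)) ^ 2 := by
        gcongr
    _ = 4 * δ ^ 2 * (∑ j, ‖cHess f y i j‖) ^ 2 := by ring
    _ ≤ 4 * δ ^ 2 * (n * ∑ j, ‖cHess f y i j‖ ^ 2) := by gcongr
    _ = _ := by ring

end Vale.Agent.P284.H513.V
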