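import Vale.Agent.P284.H513.Mol4

/-!
# P284, block V11 (helper513): mollification in charts
-/

open scoped ContDiff Topology ComplexConjugate
open MeasureTheory Set Filter Metric

noncomputable section

namespace Vale.Agent.P284.H513.V

open Vale.Agent.P272.K Vale.Agent.P272.K.INT Vale.Agent.P284.H894.V

variable {n : ℕ}

lemma D1_nonneg (f : Cm n → ℝ) (y : Cm n) : 0 ≤ D1 f y := Finset.sum_nonneg fun _ _ => sq_nonneg _

lemma D2_nonneg (f : Cm n → ℝ) (y : Cm n) : 0 ≤ D2 f y :=
  Finset.sum_nonneg fun _ _ => Finset.sum_nonneg fun _ _ => sq_nonneg _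

lemma continuous_D1 {f : Cm n → ℝ} (hf : ContDiff ℝ 4 f) : Continuous (D1 f) := by
  have hfc : ContDiff ℝ 4 fun y => (f y : ℂ) := Complex.ofRealCLM.contDiff.comp hf
  exact continuous_finsetSum _ fun j _ =>
    ((contDiff_dz (m := 3) hfc (by norm_num) j).continuous.norm).pow 2

lemma continuous_cHess {f : Cm n → ℝ} (hf : ContDiff ℝ 4 f) (i j : Fin n) :
    Continuous fun y => cHess f y i j :=
  (contDiff_cHess (k := 0) (hf.of_le (by norm_num)) i j).continuous

lemma continuous_D2 {f : Cm n → ℝ} (hf : ContDiff ℝ 4 f) : Continuous (D2 f) :=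
  continuous_finsetSum _ fun i _ => continuous_finsetSum _ fun j _ =>
    ((continuous_cHess hf i j).norm).pow 2

lemma D1_congr {f g : Cm n → ℝ} {z : Cm n} (h : f =ᶠ[𝓝 z] g) : D1 f z = D1 g z := by
  have h' : (fun y => (f y : ℂ)) =ᶠ[𝓝 z] fun y => (g y : ℂ) := by
    filter_upwards [h] with y hy; rw [hy]
  unfold D1
  exact Finset.sum_congr rfl fun j _ => by rw [INT.dz_congr h']

lemma cHess_congr {f g : Cm n → ℝ} {z : Cm n} (h : f =ᶠ[𝓝 z] g) : cHess f z = cHess g z := by
  have h' : (fun y => (f y : ℂ)) =ᶠ[𝓝 z] fun y => (g y : ℂ) := by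
    filter_upwards [h] with y hy; rw [hy]
  ext i j
  exact INT.dz_congr (INT.dzb_congr' h')

lemma D2_congr {f g : Cm n → ℝ} {z : Cm n} (h : f =ᶠ[𝓝 z] g) : D2 f z = D2 g z := by
  unfold D2; rw [cHess_congr h]

/-- Jensen -/
lemma sq_mv_le {E : Type*} [NormedAddCommGroup E] [NormedSpace ℝ E] {δ : ℝ} {η Θ : Cm n → ℝ}
    (m : Mol δ η Θ) {M : ℝ} (hM : ∀ t, η t ≤ M) {g : Cm n → E} (hg : Continuous g) {c z : Cm n}
    {r R : ℝ} (hz : z ∈ ball c r) (hR : r + δ ≤ R) :
    ‖mv η g z‖ ^ 2 ≤ M * ∫ y in ball c R, ‖g y‖ ^ 2 := by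
  have hη : Continuous η := m.smooth.continuous
  have cg : Continuous fun t => ‖g (z + t)‖ := (hg.comp (by fun_prop)).norm
  have i0 : Integrable η := hη.integrable_of_hasCompactSupport m.hcs
  have i1 : Integrable fun t => η t * ‖g (z + t)‖ :=
    (hη.mul cg).integrable_of_hasCompactSupport m.hcs.mul_right
  have i2 : Integrable fun t => η t * ‖g (z + t)‖ ^ 2 :=
    (hη.mul (cg.pow 2)).integrable_of_hasCompactSupport m.hcs.mul_right
  have h1 : ‖mv η g z‖ ≤ ∫ t, η t * ‖g (z + t)‖ := by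
    refine norm_integral_le_of_norm_le i1 (Eventually.of_forall fun t => ?_)
    rw [norm_smul, Real.norm_of_nonneg (m.nonneg t)]
  have h2 := wcs volume η (fun t => ‖g (z + t)‖) m.nonneg i0 i1 i2
  rw [m.one, one_mul] at h2
  have h3 : ∫ t, η t * ‖g (z + t)‖ ^ 2 = ∫ y, η (y - z) * ‖g y‖ ^ 2 := by
    have := integral_add_left_eq_self (μ := (volume : Measure (Cm n)))
      (fun y => η (y - z) * ‖g y‖ ^ 2) z
    simpa using this
  have h4 : ∫ y, η (y - z) * ‖g y‖ ^ 2 = ∫ y in ball c R, η (y - z) * ‖g y‖ ^ 2 := by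
    symm
    refine setIntegral_eq_integral_of_forall_compl_eq_zero fun y hy => ?_
    rw [m.zero (y - z), zero_mul]
    by_contra hc
    push Not at hc
    apply hy
    rw [mem_ball] at hz ⊢
    calc dist y c ≤ dist y z + dist z c := dist_triangle _ _ _
      _ < δ + r := by rw [dist_eq_norm y z]; linarith
      _ ≤ R := by linarith
  have h5 : ∫ y in ball c R, η (y - z) * ‖g y‖ ^ 2 ≤ ∫ y in ball c R, M * ‖g y‖ ^ 2 := by
    have k1 : Continuous fun y => η (y - z) * ‖g y‖ ^ 2 :=
      (hη.comp (by fun_prop)).mul (hg.norm.pow 2)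
    have k2 : Continuous fun y => M * ‖g y‖ ^ 2 := continuous_const.mul (hg.norm.pow 2)
    refine setIntegral_mono_on
      ((k1.continuousOn.integrableOn_compact (isCompact_closedBall c R)).mono_set
        ball_subset_closedBall)
      ((k2.continuousOn.integrableOn_compact (isCompact_closedBall c R)).mono_set
        ball_subset_closedBall) measurableSet_ball fun y _ => ?_
    exact mul_le_mul_of_nonneg_right (hM _) (sq_nonneg _)
  rw [integral_const_mul] at h5
  calc ‖mv η g z‖ ^ 2 ≤ (∫ t, η t * ‖g (z + t)‖) ^ 2 := by gcongr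
    _ ≤ ∫ t, η t * ‖g (z + t)‖ ^ 2 := h2
    _ = ∫ y in ball c R, η (y - z) * ‖g y‖ ^ 2 := h3.trans h4
    _ ≤ _ := h5

/-- Lipschitz bound for a mollified function -/
lemma sq_mv_sub_le {E : Type*} [NormedAddCommGroup E] [NormedSpace ℝ E] {δ : ℝ} {η Θ : Cm n → ℝ}
    (m : Mol δ η Θ) {L : NNReal} (hL : LipschitzWith L η) {g : Cm n → E} (hg : Continuous g)
    {c z z' : Cm n} {r R : ℝ} (hz : z ∈ ball c r) (hz' : z' ∈ ball c r) (hR : r + δ ≤ R) :
    ‖mv η g z - mv η g z'‖ ^ 2 ≤ (2 * L ^ 2 * volume.real (ball (0 : Cm n) δ)) * ‖z - z'‖ ^ 2 *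
      ∫ y in ball c R, ‖g y‖ ^ 2 := by
  have hη : Continuous η := m.smooth.continuous
  have hsupp : ∀ x ∈ ball c r, ∀ y, y ∉ ball x δ → η (y - x) = 0 := by
    intro x _ y hy
    refine m.zero _ ?_
    rw [mem_ball, dist_eq_norm] at hy
    linarith
  have hball : ∀ x ∈ ball c r, ball x δ ⊆ ball c R := fun x hx =>
    ball_subset (by rw [mem_ball] at hx; linarith)
  -- kernels
  have hs : ∀ x : Cm n, mv η g x = ∫ y, η (y - x) • g y := by
    intro x
    have := integral_add_left_eq_self (μ := (volume : Measure (Cm n)))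
      (fun y => η (y - x) • g y) x
    simpa [mv] using this
  have hcsx : ∀ x : Cm n, HasCompactSupport fun y => η (y - x) := fun x =>
    m.hcs.comp_homeomorph (Homeomorph.subRight x)
  have cx : ∀ x : Cm n, Continuous fun y => η (y - x) := fun x => hη.comp (by fun_prop)
  have ix : ∀ x : Cm n, Integrable fun y => η (y - x) • g y := fun x =>
    ((cx x).smul hg).integrable_of_hasCompactSupport (hcsx x).smul_right
  set q : Cm n → ℝ := fun y => |η (y - z) - η (y - z')| with hqdef
  have cq : Continuous q := ((cx z).sub (cx z')).abs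
  have hcq : HasCompactSupport q := by
    refine HasCompactSupport.intro (isCompact_closedBall c R) fun y hy => ?_
    have h1 : y ∉ ball c R := fun h => hy (ball_subset_closedBall h)
    rw [hqdef]
    simp only
    rw [hsupp z hz y fun h => h1 (hball z hz h), hsupp z' hz' y fun h => h1 (hball z' hz' h)]
    simp
  have hq0 : ∀ y, 0 ≤ q y := fun y => abs_nonneg _
  have e1 : mv η g z - mv η g z' = ∫ y, (η (y - z) - η (y - z')) • g y := by
    rw [hs z, hs z', ← integral_sub (ix z) (ix z')]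
    refine integral_congr_ae (Eventually.of_forall fun y => ?_)
    simp only [sub_smul]
  have i0 : Integrable q := cq.integrable_of_hasCompactSupport hcq
  have i1 : Integrable fun y => q y * ‖g y‖ :=
    (cq.mul hg.norm).integrable_of_hasCompactSupport hcq.mul_right
  have i2 : Integrable fun y => q y * ‖g y‖ ^ 2 :=
    (cq.mul (hg.norm.pow 2)).integrable_of_hasCompactSupport hcq.mul_right
  have h1 : ‖mv η g z - mv η g z'‖ ≤ ∫ y, q y * ‖g y‖ := by
    rw [e1]
    refine norm_integral_le_of_norm_le i1 (Eventually.of_forall fun y => ?_)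
    rw [norm_smul, Real.norm_eq_abs]
  have h2 := wcs volume q (fun y => ‖g y‖) hq0 i0 i1 i2
  -- the kernel is at most `L ‖z - z'‖`
  have hqL : ∀ y, q y ≤ L * ‖z - z'‖ := by
    intro y
    have := hL.dist_le_mul (y - z) (y - z')
    rw [Real.dist_eq, dist_eq_norm] at this
    calc q y ≤ L * ‖y - z - (y - z')‖ := this
      _ = L * ‖z - z'‖ := by
          rw [sub_sub_sub_cancel_left, norm_sub_rev]
  have hqz : ∀ y, y ∉ ball z δ ∪ ball z' δ → q y = 0 := by
    intro y hy
    rw [mem_union, not_or] at hy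
    change |η (y - z) - η (y - z')| = 0
    rw [hsupp z hz y hy.1, hsupp z' hz' y hy.2]; simp
  have hvol : ∀ x : Cm n, volume.real (ball x δ) = volume.real (ball (0 : Cm n) δ) := fun x => by
    rw [Measure.real, Measure.real, Measure.addHaar_ball_center]
  have h3 : ∫ y, q y ≤ (L * ‖z - z'‖) * (2 * volume.real (ball (0 : Cm n) δ)) := by
    have k1 : ∫ y, q y = ∫ y in ball z δ ∪ ball z' δ, q y :=
      (setIntegral_eq_integral_of_forall_compl_eq_zero fun y hy => hqz y hy).symm
    have hfin : volume (ball z δ ∪ ball z' δ) ≠ ⊤ :=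
      (measure_union_lt_top measure_ball_lt_top measure_ball_lt_top).ne
    have k2 : ∫ y in ball z δ ∪ ball z' δ, q y ≤ ∫ y in ball z δ ∪ ball z' δ, L * ‖z - z'‖ :=
      setIntegral_mono_on i0.integrableOn (integrableOn_const hfin)
        (measurableSet_ball.union measurableSet_ball) fun y _ => hqL y
    have k3 : volume.real (ball z δ ∪ ball z' δ) ≤ 2 * volume.real (ball (0 : Cm n) δ) := by
      refine (measureReal_union_le _ _).trans ?_
      rw [hvol z, hvol z']; linarith
    rw [k1]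
    refine k2.trans ?_
    rw [setIntegral_const, smul_eq_mul, mul_comm]
    exact mul_le_mul_of_nonneg_left k3 (by positivity)
  have h4 : ∫ y, q y * ‖g y‖ ^ 2 ≤ (L * ‖z - z'‖) * ∫ y in ball c R, ‖g y‖ ^ 2 := by
    have k1 : ∫ y, q y * ‖g y‖ ^ 2 = ∫ y in ball c R, q y * ‖g y‖ ^ 2 := by
      refine (setIntegral_eq_integral_of_forall_compl_eq_zero fun y hy => ?_).symm
      rw [hqz y, zero_mul]
      intro h
      rcases h with h | h
      · exact hy (hball z hz h)
      · exact hy (hball z' hz' h)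
    rw [k1, ← integral_const_mul]
    have k2 : Continuous fun y => L * ‖z - z'‖ * ‖g y‖ ^ 2 :=
      continuous_const.mul (hg.norm.pow 2)
    refine setIntegral_mono_on i2.integrableOn
      ((k2.continuousOn.integrableOn_compact (isCompact_closedBall c R)).mono_set
        ball_subset_closedBall) measurableSet_ball fun y _ => ?_
    exact mul_le_mul_of_nonneg_right (hqL y) (sq_nonneg _)
  have h30 : 0 ≤ ∫ y, q y := integral_nonneg hq0
  have h40 : 0 ≤ ∫ y, q y * ‖g y‖ ^ 2 := integral_nonneg fun y => mul_nonneg (hq0 y) (sq_nonneg _)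
  calc ‖mv η g z - mv η g z'‖ ^ 2 ≤ (∫ y, q y * ‖g y‖) ^ 2 := by gcongr
    _ ≤ (∫ y, q y) * ∫ y, q y * ‖g y‖ ^ 2 := h2
    _ ≤ ((L * ‖z - z'‖) * (2 * volume.real (ball (0 : Cm n) δ))) *
        ((L * ‖z - z'‖) * ∫ y in ball c R, ‖g y‖ ^ 2) :=
        mul_le_mul h3 h4 h40 (h30.trans h3)
    _ = _ := by ring

/-! ### the seven statements for global functions -/

section

variable {δ : ℝ} {η Θ : Cm n → ℝ} (m : Mol δ η Θ) {g : Cm n → ℝ} (hg : ContDiff ℝ 4 g)
  (hgc : HasCompactSupport g) {c : Cm n} {r R : ℝ} (hR : r + δ ≤ R)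

include m

lemma a_core (hg : Continuous g) : ContDiff ℝ ∞ (mv η g) := by
  have hη' : ContDiff ℝ ∞ fun y : Cm n => η (-y) := m.smooth.comp contDiff_neg
  have hcs : HasCompactSupport fun y : Cm n => η (-y) :=
    m.hcs.comp_homeomorph (Homeomorph.neg (Cm n))
  have h := hcs.contDiff_convolution_right (ContinuousLinearMap.mul ℝ ℝ)
    (hg.locallyIntegrable (μ := (volume : Measure (Cm n)))) hη'
  convert h using 1
  funext x
  have := integral_add_left_eq_self (μ := (volume : Measure (Cm n)))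
    (fun y => η (y - x) * g y) x
  simp only [add_sub_cancel_left] at this
  simp only [mv, smul_eq_mul, convolution, ContinuousLinearMap.mul_apply']
  rw [this]
  refine integral_congr_ae (Eventually.of_forall fun y => ?_)
  simp only [neg_sub]
  ring

include hR

lemma b_core (hg : ContDiff ℝ 4 g) :
    ∫ z in ball c r, (g z - mv η g z) ^ 2 ≤
      ((∫ p in KK n δ, η p.2) ^ 2 * (4 * δ ^ 2 * n)) * ∫ z in ball c R, D1 g z := by
  have hgC : ContDiff ℝ 4 fun y => (g y : ℂ) := Complex.ofRealCLM.contDiff.comp hg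
  have hg1 : ContDiff ℝ 1 fun y => (g y : ℂ) := hgC.of_le (by norm_num)
  have h := basic (H := fun y => (4 * δ ^ 2 * n) * D1 g y)
    (A := fun z => mv η (fun y => (g y : ℂ)) z - g z)
    (G := fun z p => fderiv ℝ (fun y => (g y : ℂ)) (z + p.1 • p.2) p.2)
    m.smooth.continuous m.nonneg m.zero (continuous_const.mul (continuous_D1 hg))
    (fun y => mul_nonneg (by positivity) (D1_nonneg _ _)) (fun z => m.taylor hg1 z)
    (fun z p hp => sq_fderiv_le g _ _ (by simpa using hp.2)) (c := c) hR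
  rw [integral_const_mul] at h
  rw [mul_assoc]
  refine le_trans (le_of_eq ?_) h
  refine setIntegral_congr_fun measurableSet_ball fun z _ => ?_
  rw [← mv_ofReal, ← Complex.ofReal_sub, Complex.norm_real, Real.norm_eq_abs, sq_abs]
  ring

lemma d_core (hg : ContDiff ℝ 4 g) :
    ∫ z in ball c r, (g z - mv η g z) ^ 2 ≤
      ((∫ p in KK n δ, Θ p.2) ^ 2 * (4 * n)) * ∫ z in ball c R, D2 g z := by
  have h := basic (H := fun y => (4 * (n : ℝ)) * D2 g y)
    (A := fun z => mv η (fun y => (g y : ℂ)) z - g z)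
    (G := fun z p => 2 * p.1 * ∑ j, cHess g (z + p.1 • p.2) j j)
    m.th1.continuous m.thn m.thz (continuous_const.mul (continuous_D2 hg))
    (fun y => mul_nonneg (by positivity) (D2_nonneg _ _)) (fun z => m.rep0 hg z)
    (fun z p hp => sq_trace_le g _ hp.1) (c := c) hR
  rw [integral_const_mul] at h
  rw [mul_assoc]
  refine le_trans (le_of_eq ?_) h
  refine setIntegral_congr_fun measurableSet_ball fun z _ => ?_
  rw [← mv_ofReal, ← Complex.ofReal_sub, Complex.norm_real, Real.norm_eq_abs, sq_abs]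
  ring

include hgc

lemma c_core (hg : ContDiff ℝ 4 g) :
    ∫ z in ball c r, D1 (fun y => g y - mv η g y) z ≤
      ((∫ p in KK n δ, η p.2) ^ 2 * (4 * δ ^ 2 * n)) * ∫ z in ball c R, D2 g z := by
  have hgC : ContDiff ℝ 4 fun y => (g y : ℂ) := Complex.ofRealCLM.contDiff.comp hg
  have hg1 : ContDiff ℝ 1 fun y => (g y : ℂ) := hgC.of_le (by norm_num)
  have hcC : HasCompactSupport fun y => (g y : ℂ) := hgc.comp_left Complex.ofReal_zero
  have hη : Continuous η := m.smooth.continuous
  have hdz : ∀ i, ContDiff ℝ 1 (dz i fun y => (g y : ℂ)) := fun i =>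
    contDiff_dz hgC (by norm_num) i
  have hcd : ∀ i, HasCompactSupport (dz i fun y => (g y : ℂ)) := fun i => hcs_dz hcC i
  set A : Fin n → Cm n → ℂ := fun i z => mv η (dz i fun y => (g y : ℂ)) z -
    dz i (fun y => (g y : ℂ)) z with hA
  have cmv : ∀ i, Continuous (mv η (dz i fun y => (g y : ℂ))) := fun i =>
    continuous_iff_continuousAt.2 fun z =>
      (mv_hasFDerivAt hη m.hcs (hdz i) (hcd i) z).continuousAt
  have cA : ∀ i, Continuous (A i) := fun i => (cmv i).sub (hdz i).continuous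
  have e1 : ∀ z, D1 (fun y => g y - mv η g y) z = ∑ i, ‖A i z‖ ^ 2 := by
    intro z
    unfold D1
    refine Finset.sum_congr rfl fun i _ => ?_
    have e2 : (fun y => ((g y - mv η g y : ℝ) : ℂ)) =
        fun y => (g y : ℂ) - mv η (fun y => (g y : ℂ)) y := by
      funext y; rw [Complex.ofReal_sub, mv_ofReal]
    rw [e2, INT.dz_sub (hg1.differentiable (by norm_num) z)
      (mv_hasFDerivAt hη m.hcs hg1 hcC z).differentiableAt, mv_dz hη m.hcs hg1 hcC, hA]
    simp only
    rw [norm_sub_rev]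
  have h : ∀ i, ∫ z in ball c r, ‖A i z‖ ^ 2 ≤ (∫ p in KK n δ, η p.2) ^ 2 *
      ∫ z in ball c R, (4 * δ ^ 2 * n) * ∑ j, ‖cHess g z i j‖ ^ 2 := fun i =>
    basic (H := fun y => (4 * δ ^ 2 * n) * ∑ j, ‖cHess g y i j‖ ^ 2)
      (A := A i)
      (G := fun z p => 2 * ∑ j, conj (p.2 j) * cHess g (z + p.1 • p.2) i j)
      hη m.nonneg m.zero
      (continuous_const.mul (continuous_finsetSum _ fun j _ => (continuous_cHess hg i j).norm.pow 2))
      (fun y => mul_nonneg (by positivity) (Finset.sum_nonneg fun j _ => sq_nonneg _))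
      (fun z => m.rep1 hg i z)
      (fun z p hp => sq_row_le g _ _ i (by simpa using hp.2)) (c := c) hR
  simp only [e1]
  have iA : ∀ i, IntegrableOn (fun z => ‖A i z‖ ^ 2) (ball c r) := fun i =>
    (((cA i).norm.pow 2).continuousOn.integrableOn_compact (isCompact_closedBall c r)).mono_set
      ball_subset_closedBall
  rw [integral_finsetSum _ fun i _ => iA i]
  refine (Finset.sum_le_sum fun i _ => h i).trans (le_of_eq ?_)
  rw [← Finset.mul_sum, mul_assoc ((∫ p in KK n δ, η p.2) ^ 2)]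
  congr 1
  rw [← integral_const_mul, ← integral_finsetSum]
  · refine setIntegral_congr_fun measurableSet_ball fun z _ => ?_
    simp only [D2, Finset.mul_sum]
  · intro i _
    exact ((continuous_const.mul (continuous_finsetSum _ fun j _ =>
      (continuous_cHess hg i j).norm.pow 2)).continuousOn.integrableOn_compact
        (isCompact_closedBall c R)).mono_set ball_subset_closedBall

omit hR in
lemma cHess_mv (hg : ContDiff ℝ 4 g) (z : Cm n) (j k : Fin n) :
    cHess (mv η g) z j k = mv η (fun y => cHess g y j k) z := by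
  have hgC : ContDiff ℝ 4 fun y => (g y : ℂ) := Complex.ofRealCLM.contDiff.comp hg
  have hg1 : ContDiff ℝ 1 fun y => (g y : ℂ) := hgC.of_le (by norm_num)
  have hcC : HasCompactSupport fun y => (g y : ℂ) := hgc.comp_left Complex.ofReal_zero
  have hη : Continuous η := m.smooth.continuous
  have e1 : (fun y => ((mv η g y : ℝ) : ℂ)) = mv η (fun y => (g y : ℂ)) := by
    funext y; exact mv_ofReal g y
  have e2 : dzb k (mv η (fun y => (g y : ℂ))) = mv η (dzb k fun y => (g y : ℂ)) := by
    funext y; exact mv_dzb hη m.hcs hg1 hcC k y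
  change dz j (dzb k fun y => ((mv η g y : ℝ) : ℂ)) z = _
  rw [e1, e2, mv_dz hη m.hcs (contDiff_dzb hgC (by norm_num) k) (hcs_dzb hcC k)]
  rfl

lemma e_core (hg : ContDiff ℝ 4 g) {M : ℝ} (hM : ∀ t, η t ≤ M) {z : Cm n} (hz : z ∈ ball c r) :
    D2 (mv η g) z ≤ M * ∫ z in ball c R, D2 g z := by
  have h : ∀ j k, ‖cHess (mv η g) z j k‖ ^ 2 ≤ M * ∫ y in ball c R, ‖cHess g y j k‖ ^ 2 := by
    intro j k
    rw [cHess_mv m hgc hg]
    exact sq_mv_le m hM (continuous_cHess hg j k) hz hR
  have ii : ∀ j k, IntegrableOn (fun z => ‖cHess g z j k‖ ^ 2) (ball c R) := fun j k =>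
    (((continuous_cHess hg j k).norm.pow 2).continuousOn.integrableOn_compact
      (isCompact_closedBall c R)).mono_set ball_subset_closedBall
  have e : ∫ y in ball c R, D2 g y = ∑ j, ∑ k, ∫ y in ball c R, ‖cHess g y j k‖ ^ 2 := by
    unfold D2
    rw [integral_finsetSum _ fun j _ => integrable_finsetSum _ fun k _ => ii j k]
    exact Finset.sum_congr rfl fun j _ => integral_finsetSum _ fun k _ => ii j k
  rw [e, Finset.mul_sum]
  unfold D2
  refine Finset.sum_le_sum fun j _ => ?_
  rw [Finset.mul_sum]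
  exact Finset.sum_le_sum fun k _ => h j k

omit hR in
lemma fderiv_mv (hg : ContDiff ℝ 4 g) (z : Cm n) :
    fderiv ℝ (mv η g) z = mv η (fderiv ℝ g) z :=
  (mv_hasFDerivAt m.smooth.continuous m.hcs (hg.of_le (by norm_num)) hgc z).fderiv

omit m hR hgc in
lemma int_fderiv_le (hg : ContDiff ℝ 4 g) :
    ∫ y in ball c R, ‖fderiv ℝ g y‖ ^ 2 ≤ (4 * n) * ∫ y in ball c R, D1 g y := by
  rw [← integral_const_mul]
  have c1 : Continuous fun y => ‖fderiv ℝ g y‖ ^ 2 :=
    (hg.continuous_fderiv (by norm_num)).norm.pow 2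
  have c2 : Continuous fun y => (4 * n) * D1 g y := continuous_const.mul (continuous_D1 hg)
  refine setIntegral_mono_on
    ((c1.continuousOn.integrableOn_compact (isCompact_closedBall c R)).mono_set
        ball_subset_closedBall)
    ((c2.continuousOn.integrableOn_compact (isCompact_closedBall c R)).mono_set
        ball_subset_closedBall) measurableSet_ball fun y _ => ?_
  exact sq_norm_fderiv_le (hg.differentiable (by norm_num) y)

lemma f_core (hg : ContDiff ℝ 4 g) {M : ℝ} (hM : ∀ t, η t ≤ M) (hM0 : 0 ≤ M) {z : Cm n}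
    (hz : z ∈ ball c r) :
    ‖fderiv ℝ (mv η g) z‖ ^ 2 ≤ (M * (4 * n)) * ∫ z in ball c R, D1 g z := by
  rw [fderiv_mv m hgc hg, mul_assoc]
  exact (sq_mv_le m hM (hg.continuous_fderiv (by norm_num)) hz hR).trans
    (mul_le_mul_of_nonneg_left (int_fderiv_le hg) hM0)

lemma g_core (hg : ContDiff ℝ 4 g) {L : NNReal} (hL : LipschitzWith L η) {z z' : Cm n}
    (hz : z ∈ ball c r) (hz' : z' ∈ ball c r) :
    ‖fderiv ℝ (mv η g) z - fderiv ℝ (mv η g) z'‖ ^ 2 ≤
      (2 * L ^ 2 * volume.real (ball (0 : Cm n) δ) * (4 * n)) * ‖z - z'‖ ^ 2 *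
        ∫ z in ball c R, D1 g z := by
  rw [fderiv_mv m hgc hg, fderiv_mv m hgc hg]
  refine (sq_mv_sub_le m hL (hg.continuous_fderiv (by norm_num)) hz hz' hR).trans ?_
  have h := int_fderiv_le (c := c) (R := R) hg
  calc (2 * L ^ 2 * volume.real (ball (0 : Cm n) δ)) * ‖z - z'‖ ^ 2 *
        ∫ y in ball c R, ‖fderiv ℝ g y‖ ^ 2
      ≤ (2 * L ^ 2 * volume.real (ball (0 : Cm n) δ)) * ‖z - z'‖ ^ 2 *
        ((4 * n) * ∫ y in ball c R, D1 g y) := mul_le_mul_of_nonneg_left h (by positivity)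
    _ = _ := by ring

end

theorem v11Stmt : V11Stmt := by
  intro n δ hδ
  obtain ⟨η, Θ, m⟩ := exists_mol n hδ
  have hη : Continuous η := m.smooth.continuous
  obtain ⟨M, hM'⟩ := hη.bounded_above_of_compact_support m.hcs
  have hM0 : 0 ≤ M := (norm_nonneg _).trans (hM' 0)
  have hM : ∀ t, η t ≤ M := fun t => (Real.le_norm_self _).trans (hM' t)
  obtain ⟨L, hL⟩ := (m.smooth.of_le (m := 1) (by norm_cast)).lipschitzWith_of_hasCompactSupport
    m.hcs one_ne_zero
  set K1 : ℝ := (∫ p in KK n δ, η p.2) ^ 2 * (4 * δ ^ 2 * n) with hK1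
  set K2 : ℝ := (∫ p in KK n δ, Θ p.2) ^ 2 * (4 * n) with hK2
  set K3 : ℝ := M * (4 * n) with hK3
  set K4 : ℝ := 2 * L ^ 2 * volume.real (ball (0 : Cm n) δ) * (4 * n) with hK4
  have k1 : 0 ≤ K1 := by positivity
  have k2 : 0 ≤ K2 := by positivity
  have k3 : 0 ≤ K3 := by positivity
  have k4 : 0 ≤ K4 := by positivity
  refine ⟨η, 1 + K1 + K2 + K3 + K4 + M, by positivity, m.smooth, m.nonneg, m.zero, m.one, ?_⟩
  set B : ℝ := 1 + K1 + K2 + K3 + K4 + M with hB
  intro c r R hr hR f hf
  obtain ⟨g, hg, hgc, hfg⟩ := exists_ext (by linarith) hf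
  have hrR : r ≤ R := by linarith
  have hmo : ∀ z ∈ ball c r, mo η f z = mv η g z := by
    intro z hz
    unfold mo mv
    refine integral_congr_ae (Eventually.of_forall fun t => ?_)
    simp only [smul_eq_mul]
    by_cases ht : δ ≤ ‖t‖
    · rw [m.zero t ht]; simp
    · push Not at ht
      have : z + t ∈ closedBall c R := by
        rw [mem_ball] at hz
        rw [mem_closedBall]
        calc dist (z + t) c ≤ dist (z + t) z + dist z c := dist_triangle _ _ _
          _ ≤ δ + r := by rw [dist_eq_norm (z + t), add_sub_cancel_left]; linarith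
          _ ≤ R := by linarith
      rw [(hfg _ this).eq_of_nhds]
  have hmoe : ∀ z ∈ ball c r, mo η f =ᶠ[𝓝 z] mv η g := fun z hz => by
    filter_upwards [isOpen_ball.mem_nhds hz] with y hy using hmo y hy
  have hfr : ∀ z ∈ ball c r, f =ᶠ[𝓝 z] g := fun z hz =>
    hfg z (ball_subset_closedBall (ball_subset_ball hrR hz))
  have hfR : ∀ z ∈ ball c R, f =ᶠ[𝓝 z] g := fun z hz => hfg z (ball_subset_closedBall hz)
  have eD1 : ∫ z in ball c R, D1 f z = ∫ z in ball c R, D1 g z :=
    setIntegral_congr_fun measurableSet_ball fun z hz => D1_congr (hfR z hz)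
  have eD2 : ∫ z in ball c R, D2 f z = ∫ z in ball c R, D2 g z :=
    setIntegral_congr_fun measurableSet_ball fun z hz => D2_congr (hfR z hz)
  have e0 : ∫ z in ball c r, (f z - mo η f z) ^ 2 = ∫ z in ball c r, (g z - mv η g z) ^ 2 :=
    setIntegral_congr_fun measurableSet_ball fun z hz => by
      rw [hmo z hz, (hfr z hz).eq_of_nhds]
  have e1 : ∫ z in ball c r, D1 (fun y => f y - mo η f y) z =
      ∫ z in ball c r, D1 (fun y => g y - mv η g y) z :=
    setIntegral_congr_fun measurableSet_ball fun z hz => D1_congr ((hfr z hz).sub (hmoe z hz))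
  have n1 : 0 ≤ ∫ z in ball c R, D1 g z := integral_nonneg fun z => D1_nonneg _ _
  have n2 : 0 ≤ ∫ z in ball c R, D2 g z := integral_nonneg fun z => D2_nonneg _ _
  rw [eD1, eD2, e0, e1]
  refine ⟨fun z hz => ?_, ?_, ?_, ?_, fun z hz => ?_, fun z hz => ?_, fun z hz z' hz' => ?_⟩
  · exact (a_core m hg.continuous).contDiffAt.congr_of_eventuallyEq (hmoe z hz)
  · exact (b_core m hR hg).trans (mul_le_mul_of_nonneg_right (by rw [hB]; linarith) n1)
  · exact (c_core m hgc hR hg).trans (mul_le_mul_of_nonneg_right (by rw [hB]; linarith) n2)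
  · exact (d_core m hR hg).trans (mul_le_mul_of_nonneg_right (by rw [hB]; linarith) n2)
  · rw [D2_congr (hmoe z hz)]
    exact (e_core m hgc hR hg hM hz).trans (mul_le_mul_of_nonneg_right (by rw [hB]; linarith) n2)
  · rw [(hmoe z hz).fderiv_eq]
    exact (f_core m hgc hR hg hM hM0 hz).trans
      (mul_le_mul_of_nonneg_right (by rw [hB]; linarith) n1)
  · rw [(hmoe z hz).fderiv_eq, (hmoe z' hz').fderiv_eq]
    refine (g_core m hgc hR hg hL hz hz').trans ?_
    refine mul_le_mul_of_nonneg_right ?_ n1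
    exact mul_le_mul_of_nonneg_right (by rw [hB]; linarith) (sq_nonneg _)

end Vale.Agent.P284.H513.V
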