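import Vale.Agent.P272.K.INT.Wirt
import Mathlib.Analysis.Calculus.BumpFunction.FiniteDimension
import Mathlib.Analysis.Calculus.ParametricIntegral
import Mathlib.Analysis.Calculus.ContDiff.Convolution
import Mathlib.MeasureTheory.Integral.Prod
import Mathlib.MeasureTheory.Integral.IntervalIntegral.FundThmCalculus
import Mathlib.MeasureTheory.Measure.Haar.OfBasis
import Mathlib.MeasureTheory.Constructions.HaarToSphere

/-!
# P284, block V11 (helper513): mollification, general lemmas
-/

open scoped ContDiff Topology ComplexConjugate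
open MeasureTheory Set Filter Metric

noncomputable section

namespace Vale.Agent.P284.H513.V

open Vale.Agent.P272.K Vale.Agent.P272.K.INT

/-- weighted Cauchy–Schwarz -/
lemma wcs {α : Type*} [MeasurableSpace α] (μ : Measure α) (q h : α → ℝ) (hq : ∀ x, 0 ≤ q x)
    (i0 : Integrable q μ) (i1 : Integrable (fun x => q x * h x) μ)
    (i2 : Integrable (fun x => q x * h x ^ 2) μ) :
    (∫ x, q x * h x ∂μ) ^ 2 ≤ (∫ x, q x ∂μ) * ∫ x, q x * h x ^ 2 ∂μ := by
  have key : ∀ a : ℝ, 0 ≤ (∫ x, q x ∂μ) * (a * a) + (2 * ∫ x, q x * h x ∂μ) * a +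
      ∫ x, q x * h x ^ 2 ∂μ := by
    intro a
    have e : (∫ x, q x ∂μ) * (a * a) + (2 * ∫ x, q x * h x ∂μ) * a + ∫ x, q x * h x ^ 2 ∂μ
        = ∫ x, q x * (a + h x) ^ 2 ∂μ := by
      have e1 : ∀ x, q x * (a + h x) ^ 2 = (a * a) * q x + (2 * a) * (q x * h x) + q x * h x ^ 2 :=
        fun x => by ring
      have A : Integrable (fun x => (a * a) * q x) μ := i0.const_mul _
      have B : Integrable (fun x => (2 * a) * (q x * h x)) μ := i1.const_mul _
      have AB : Integrable (fun x => (a * a) * q x + (2 * a) * (q x * h x)) μ := A.add B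
      simp only [e1]
      rw [integral_add AB i2, integral_add A B, integral_const_mul, integral_const_mul]
      ring
    rw [e]
    exact integral_nonneg fun x => mul_nonneg (hq x) (sq_nonneg _)
  have := discrim_le_zero key
  unfold discrim at this
  nlinarith

section

variable {n : ℕ}

/-- A function which is smooth at the points of a closed ball coincides near it with a global one. -/
lemma exists_ext {c : Cm n} {R : ℝ} (hR : 0 < R) {f : Cm n → ℝ}
    (hf : ∀ z ∈ closedBall c R, ContDiffAt ℝ ∞ f z) :
    ∃ g : Cm n → ℝ, ContDiff ℝ 4 g ∧ HasCompactSupport g ∧ ∀ z ∈ closedBall c R, f =ᶠ[𝓝 z] g := by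
  have hU : IsOpen {z | ContDiffAt ℝ 4 f z} := by
    rw [isOpen_iff_mem_nhds]
    intro z hz
    exact ContDiffAt.eventually hz (by norm_num)
  have hsub : closedBall c R ⊆ {z | ContDiffAt ℝ 4 f z} := by
    intro z hz
    have h4 : (4 : WithTop ℕ∞) ≤ ∞ := by norm_cast
    exact (hf z hz).of_le h4
  obtain ⟨ε, hε, h⟩ := (isCompact_closedBall c R).exists_cthickening_subset_open hU hsub
  rw [cthickening_closedBall hε.le hR.le] at h
  let χ : ContDiffBump c := ⟨R + ε / 2, R + ε, by linarith, by linarith⟩
  have hsup : tsupport (χ : Cm n → ℝ) = closedBall c (R + ε) := χ.tsupport_eq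
  refine ⟨fun z => χ z * f z, ?_, ?_, ?_⟩
  · rw [contDiff_iff_contDiffAt]
    intro z
    by_cases hz : z ∈ closedBall c (R + ε)
    · have h1 : z ∈ closedBall c (ε + R) := by rwa [add_comm]
      exact (χ.contDiff.contDiffAt).mul (h h1)
    · have h0 : (fun z => χ z * f z) =ᶠ[𝓝 z] fun _ => 0 := by
        rw [← hsup] at hz
        filter_upwards [(isClosed_tsupport _).isOpen_compl.mem_nhds hz] with y hy
        rw [image_eq_zero_of_notMem_tsupport hy, zero_mul]
      exact contDiffAt_const.congr_of_eventuallyEq h0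
  · exact χ.hasCompactSupport.mul_right
  · intro z hz
    have h1 : z ∈ ball c (R + ε / 2) := by
      rw [mem_closedBall] at hz; rw [mem_ball]; linarith
    filter_upwards [isOpen_ball.mem_nhds h1] with y hy
    rw [χ.one_of_mem_closedBall (ball_subset_closedBall hy), one_mul]

end

end Vale.Agent.P284.H513.V
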