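import Vale.Agent.P284.H513.Mol0

/-!
# P284, block V11 (helper513): the mollifier
-/

open scoped ContDiff Topology ComplexConjugate
open MeasureTheory Set Filter Metric

noncomputable section

namespace Vale.Agent.P284.H513.V

open Vale.Agent.P272.K Vale.Agent.P272.K.INT

variable {n : ℕ}

/-- a radial mollifier `η` and its potential `Θ` -/
structure Mol (δ : ℝ) (η Θ : Cm n → ℝ) : Prop where
  smooth : ContDiff ℝ ∞ η
  nonneg : ∀ t, 0 ≤ η t
  zero : ∀ t, δ ≤ ‖t‖ → η t = 0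
  one : ∫ t, η t = 1
  th1 : ContDiff ℝ 1 Θ
  thn : ∀ t, 0 ≤ Θ t
  thz : ∀ t, δ ≤ ‖t‖ → Θ t = 0
  db : ∀ j t, dzb j (fun y => (Θ y : ℂ)) t = -(t j * η t)
  d : ∀ j t, dz j (fun y => (Θ y : ℂ)) t = -(conj (t j) * η t)

lemma hasFDerivAt_S (t : Cm n) : HasFDerivAt (fun t : Cm n => ∑ j, ‖t j‖ ^ 2)
    (∑ j, 2 • (innerSL ℝ (t j)).comp (ContinuousLinearMap.proj (R := ℝ) (φ := fun _ : Fin n => ℂ) j))
    t := by
  refine HasFDerivAt.fun_sum fun j _ => ?_
  exact (hasFDerivAt_apply (𝕜 := ℝ) j t).norm_sq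

lemma contDiff_S {k : WithTop ℕ∞} : ContDiff ℝ k (fun t : Cm n => ∑ j, ‖t j‖ ^ 2) := by
  refine ContDiff.sum fun j _ => ?_
  exact (contDiff_apply ℝ ℂ j).norm_sq ℝ

lemma sq_le_S (t : Cm n) {δ : ℝ} (hδ : 0 ≤ δ) (h : δ ≤ ‖t‖) (hδ' : 0 < δ) :
    δ ^ 2 ≤ ∑ j, ‖t j‖ ^ 2 := by
  by_contra hc
  push Not at hc
  have : ‖t‖ < δ := by
    rw [pi_norm_lt_iff hδ']
    intro i
    have h1 : ‖t i‖ ^ 2 ≤ ∑ j, ‖t j‖ ^ 2 :=
      Finset.single_le_sum (f := fun j => ‖t j‖ ^ 2) (fun j _ => sq_nonneg _) (Finset.mem_univ i)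
    have h2 : ‖t i‖ ^ 2 < δ ^ 2 := lt_of_le_of_lt h1 hc
    exact lt_of_pow_lt_pow_left₀ 2 hδ h2
  linarith

lemma exists_mol (n : ℕ) {δ : ℝ} (hδ : 0 < δ) : ∃ η Θ : Cm n → ℝ, Mol δ η Θ := by
  have hδ2 : (0 : ℝ) < δ ^ 2 := by positivity
  let χ : ContDiffBump (0 : ℝ) := ⟨δ ^ 2 / 2, δ ^ 2, by linarith, by linarith⟩
  have hχz : ∀ x : ℝ, δ ^ 2 ≤ x → χ x = 0 := fun x hx => χ.zero_of_le_dist (by
    simp only [Real.dist_eq, sub_zero]; exact hx.trans (le_abs_self x))
  let Q : ℝ → ℝ := fun s => ∫ x in s..δ ^ 2, χ x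
  have hQd : ∀ s, HasDerivAt Q (-χ s) s := fun s =>
    intervalIntegral.integral_hasDerivAt_left (χ.continuous.intervalIntegrable _ _)
      (χ.continuous.stronglyMeasurableAtFilter _ _) χ.continuous.continuousAt
  have hQz : ∀ s, δ ^ 2 ≤ s → Q s = 0 := by
    intro s hs
    change ∫ x in s..δ ^ 2, χ x = 0
    rw [intervalIntegral.integral_symm, neg_eq_zero]
    rw [intervalIntegral.integral_congr (g := fun _ => (0 : ℝ))]
    · simp
    · intro x hx
      rw [uIcc_of_le hs] at hx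
      exact hχz x hx.1
  have hQn : ∀ s, 0 ≤ Q s := by
    intro s
    rcases le_total s (δ ^ 2) with h | h
    · exact intervalIntegral.integral_nonneg h fun x _ => χ.nonneg
    · rw [hQz s h]
  let S : Cm n → ℝ := fun t => ∑ j, ‖t j‖ ^ 2
  have hqS : ContDiff ℝ ∞ (fun t => χ (S t)) := χ.contDiff.comp contDiff_S
  have hqz : ∀ t, δ ≤ ‖t‖ → χ (S t) = 0 := fun t ht => hχz _ (sq_le_S t hδ.le ht hδ)
  have hcs : HasCompactSupport fun t => χ (S t) :=
    HasCompactSupport.intro (isCompact_closedBall (0 : Cm n) δ) fun t ht => hqz t (by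
      rw [mem_closedBall, dist_zero_right] at ht; linarith)
  have hpos : 0 < ∫ t, χ (S t) := by
    refine Continuous.integral_pos_of_hasCompactSupport_nonneg_nonzero (x := 0) hqS.continuous hcs
      (fun t => χ.nonneg) ?_
    have h0 : S 0 = 0 := by simp [S]
    have : χ (S 0) = 1 := χ.one_of_mem_closedBall (by
      rw [h0, mem_closedBall, dist_self]; positivity)
    change χ (S 0) ≠ 0
    rw [this]; norm_num
  set κ : ℝ := (∫ t, χ (S t))⁻¹ with hκ
  have hκ0 : 0 ≤ κ := inv_nonneg.2 hpos.le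
  have hder : ∀ t, HasFDerivAt (fun t => κ * Q (S t)) ((κ * -χ (S t)) •
      (∑ j, 2 • (innerSL ℝ (t j)).comp
        (ContinuousLinearMap.proj (R := ℝ) (φ := fun _ : Fin n => ℂ) j))) t := by
    intro t
    have h1 := ((hQd (S t)).comp_hasFDerivAt t (hasFDerivAt_S t)).const_mul κ
    rw [mul_smul]
    exact h1
  have hderv : ∀ t j (a : ℂ), fderiv ℝ (fun y => ((κ * Q (S y) : ℝ) : ℂ)) t (Pi.single j a) =
      ((κ * -χ (S t) * (2 * (t j * conj a).re) : ℝ) : ℂ) := by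
    intro t j a
    have h1 : HasFDerivAt (fun y => ((κ * Q (S y) : ℝ) : ℂ)) (Complex.ofRealCLM.comp
        ((κ * -χ (S t)) • (∑ j, 2 • (innerSL ℝ (t j)).comp
          (ContinuousLinearMap.proj (R := ℝ) (φ := fun _ : Fin n => ℂ) j)))) t :=
      Complex.ofRealCLM.hasFDerivAt.comp t (hder t)
    rw [h1.fderiv]
    simp only [ContinuousLinearMap.comp_apply, smul_apply, Complex.ofRealCLM_apply,
      sum_apply, innerSL_apply_apply, ContinuousLinearMap.proj_apply, smul_eq_mul]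
    congr 2
    rw [Finset.sum_eq_single j]
    · simp [Complex.inner, mul_comm]
      ring
    · intro i _ hi
      simp [Pi.single_eq_of_ne hi]
    · intro h
      exact absurd (Finset.mem_univ j) h
  refine ⟨fun t => κ * χ (S t), fun t => κ * Q (S t), ?_⟩
  refine ⟨contDiff_const.mul hqS, fun t => mul_nonneg hκ0 χ.nonneg, fun t ht => by
    simp only [hqz t ht, mul_zero], ?_, ?_, fun t => mul_nonneg hκ0 (hQn _), fun t ht => by
    change κ * Q (S t) = 0
    rw [hQz (S t) (sq_le_S t hδ.le ht hδ), mul_zero], ?_, ?_⟩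
  · rw [integral_const_mul, hκ, inv_mul_cancel₀ hpos.ne']
  · rw [contDiff_one_iff_fderiv]
    refine ⟨fun t => (hder t).differentiableAt, ?_⟩
    have : fderiv ℝ (fun t => κ * Q (S t)) = fun t => ((κ * -χ (S t)) •
      (∑ j, 2 • (innerSL ℝ (t j)).comp
        (ContinuousLinearMap.proj (R := ℝ) (φ := fun _ : Fin n => ℂ) j))) := by
      funext t; exact (hder t).fderiv
    rw [this]
    refine Continuous.smul (continuous_const.mul hqS.continuous.neg) ?_
    refine continuous_finsetSum _ fun j _ => ?_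
    fun_prop
  · intro j t
    simp only [dzb, hderv]
    apply Complex.ext <;> simp <;> ring
  · intro j t
    simp only [dz, hderv]
    apply Complex.ext <;> simp <;> ring

end Vale.Agent.P284.H513.V
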