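import Vale.Agent.P284.H513.Mol1

/-!
# P284, block V11 (helper513): differentiation and integration by parts
-/

open scoped ContDiff Topology ComplexConjugate
open MeasureTheory Set Filter Metric

noncomputable section

namespace Vale.Agent.P284.H513.V

open Vale.Agent.P272.K Vale.Agent.P272.K.INT

variable {n : ℕ}

/-- mollification of a vector valued function -/
def mv {E : Type*} [NormedAddCommGroup E] [NormedSpace ℝ E] (η : Cm n → ℝ) (g : Cm n → E)
    (z : Cm n) : E := ∫ t, η t • g (z + t)

section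

variable {E : Type*} [NormedAddCommGroup E] [NormedSpace ℝ E]

omit [NormedSpace ℝ E] in
lemma hcs_of {δ : ℝ} {η : Cm n → E} (hz : ∀ t, δ ≤ ‖t‖ → η t = 0) :
    HasCompactSupport η :=
  HasCompactSupport.intro (isCompact_closedBall (0 : Cm n) δ) fun t ht => hz t (by
      rw [mem_closedBall, dist_zero_right] at ht; linarith)

lemma mv_hasFDerivAt [CompleteSpace E] {η : Cm n → ℝ} (hη : Continuous η) (hc : HasCompactSupport η)
    {g : Cm n → E} (hg : ContDiff ℝ 1 g) (hgc : HasCompactSupport g) (z : Cm n) :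
    HasFDerivAt (mv η g) (∫ t, η t • fderiv ℝ g (z + t)) z := by
  have hg' : Continuous (fderiv ℝ g) := hg.continuous_fderiv (by norm_num)
  obtain ⟨M, hM⟩ := hg'.bounded_above_of_compact_support (hgc.fderiv (𝕜 := ℝ))
  have hM0 : 0 ≤ M := (norm_nonneg _).trans (hM 0)
  refine hasFDerivAt_integral_of_dominated_of_fderiv_le (s := univ) (bound := fun t => ‖η t‖ * M)
    (F := fun z t => η t • g (z + t)) (F' := fun z t => η t • fderiv ℝ g (z + t))
    Filter.univ_mem ?_ ?_ ?_ ?_ ?_ ?_
  · refine Eventually.of_forall fun x => Continuous.aestronglyMeasurable ?_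
    exact hη.smul (hg.continuous.comp (by fun_prop))
  · exact (hη.smul (hg.continuous.comp (by fun_prop))).integrable_of_hasCompactSupport hc.smul_right
  · exact (hη.smul (hg'.comp (by fun_prop))).aestronglyMeasurable
  · refine Eventually.of_forall fun t x _ => ?_
    rw [norm_smul]
    exact mul_le_mul_of_nonneg_left (hM _) (norm_nonneg _)
  · exact ((hη.norm.mul continuous_const).integrable_of_hasCompactSupport
      (hc.norm.mul_right))
  · refine Eventually.of_forall fun t x _ => ?_
    have h1 : HasFDerivAt (fun x => g (x + t)) (fderiv ℝ g (x + t)) x := by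
      have h := ((hg.differentiable (by norm_num)) (x + t)).hasFDerivAt.comp x
        ((hasFDerivAt_id x).add_const t)
      rw [ContinuousLinearMap.comp_id] at h
      exact h
    exact h1.const_smul (η t)

lemma mv_fderiv [CompleteSpace E] {η : Cm n → ℝ} (hη : Continuous η) (hc : HasCompactSupport η)
    {g : Cm n → E} (hg : ContDiff ℝ 1 g) (hgc : HasCompactSupport g) (z v : Cm n) :
    fderiv ℝ (mv η g) z v = mv η (fun y => fderiv ℝ g y v) z := by
  have hg' : Continuous (fderiv ℝ g) := hg.continuous_fderiv (by norm_num)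
  rw [(mv_hasFDerivAt hη hc hg hgc z).fderiv]
  rw [ContinuousLinearMap.integral_apply]
  · rfl
  · exact (hη.smul (hg'.comp (by fun_prop))).integrable_of_hasCompactSupport hc.smul_right

end

section

variable {η : Cm n → ℝ} (hη : Continuous η) (hc : HasCompactSupport η)

include hη hc

lemma mv_int {g : Cm n → ℂ} (hg : Continuous g) (z : Cm n) :
    Integrable fun t => η t • g (z + t) :=
  (hη.smul (hg.comp (by fun_prop))).integrable_of_hasCompactSupport hc.smul_right

lemma mv_dz {g : Cm n → ℂ} (hg : ContDiff ℝ 1 g) (hgc : HasCompactSupport g) (j : Fin n)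
    (z : Cm n) : dz j (mv η g) z = mv η (dz j g) z := by
  have h1 : ∀ v, Continuous fun y => fderiv ℝ g y v := fun v =>
    (hg.continuous_fderiv (by norm_num)).clm_apply continuous_const
  rw [dz_eq, mv_fderiv hη hc hg hgc, mv_fderiv hη hc hg hgc]
  unfold mv
  rw [← integral_const_mul Complex.I, ← integral_sub (mv_int hη hc (h1 _) z)
    ((mv_int hη hc (h1 _) z).const_mul _), ← integral_const_mul]
  refine integral_congr_ae (Eventually.of_forall fun t => ?_)
  simp only [dz_eq, Complex.real_smul]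
  ring

lemma mv_dzb {g : Cm n → ℂ} (hg : ContDiff ℝ 1 g) (hgc : HasCompactSupport g) (j : Fin n)
    (z : Cm n) : dzb j (mv η g) z = mv η (dzb j g) z := by
  have h1 : ∀ v, Continuous fun y => fderiv ℝ g y v := fun v =>
    (hg.continuous_fderiv (by norm_num)).clm_apply continuous_const
  rw [dzb_eq, mv_fderiv hη hc hg hgc, mv_fderiv hη hc hg hgc]
  unfold mv
  rw [← integral_const_mul Complex.I, ← integral_add (mv_int hη hc (h1 _) z)
    ((mv_int hη hc (h1 _) z).const_mul _), ← integral_const_mul]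
  refine integral_congr_ae (Eventually.of_forall fun t => ?_)
  simp only [dzb_eq, Complex.real_smul]
  ring

omit hη hc in
lemma mv_ofReal (f : Cm n → ℝ) (z : Cm n) :
    ((mv η f z : ℝ) : ℂ) = mv η (fun y => (f y : ℂ)) z := by
  unfold mv
  rw [← integral_complex_ofReal]
  refine integral_congr_ae (Eventually.of_forall fun t => ?_)
  simp

end

lemma contDiff_dz {k m : WithTop ℕ∞} {g : Cm n → ℂ} (hg : ContDiff ℝ k g) (h : m + 1 ≤ k) (j : Fin n) :
    ContDiff ℝ m (dz j g) := by
  rw [contDiff_iff_contDiffAt]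
  exact fun z => contDiffAt_dz hg.contDiffAt h

lemma contDiff_dzb {k m : WithTop ℕ∞} {g : Cm n → ℂ} (hg : ContDiff ℝ k g) (h : m + 1 ≤ k) (j : Fin n) :
    ContDiff ℝ m (dzb j g) := by
  rw [contDiff_iff_contDiffAt]
  exact fun z => contDiffAt_dzb hg.contDiffAt h

lemma hcs_dz {g : Cm n → ℂ} (hg : HasCompactSupport g) (j : Fin n) : HasCompactSupport (dz j g) := by
  refine HasCompactSupport.intro hg fun z hz => ?_
  have h0 : g =ᶠ[𝓝 z] fun _ => 0 := notMem_tsupport_iff_eventuallyEq.1 hz
  rw [dz_congr h0]; simp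

lemma hcs_dzb {g : Cm n → ℂ} (hg : HasCompactSupport g) (j : Fin n) :
    HasCompactSupport (dzb j g) := by
  refine HasCompactSupport.intro hg fun z hz => ?_
  have h0 : g =ᶠ[𝓝 z] fun _ => 0 := notMem_tsupport_iff_eventuallyEq.1 hz
  rw [dzb_congr h0]; simp

lemma fderiv_line {g : Cm n → ℂ} (hg : ContDiff ℝ 1 g) (z : Cm n) (s : ℝ) (t v : Cm n) :
    fderiv ℝ (fun t => g (z + s • t)) t v = s * fderiv ℝ g (z + s • t) v := by
  have h1 : HasFDerivAt (fun t : Cm n => z + s • t) (s • ContinuousLinearMap.id ℝ (Cm n)) t :=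
    ((hasFDerivAt_id t).const_smul s).const_add z
  have h2 := (((hg.differentiable (by norm_num)) (z + s • t)).hasFDerivAt.comp t h1).fderiv
  have h3 : (g ∘ fun t : Cm n => z + s • t) = fun t => g (z + s • t) := rfl
  rw [h3] at h2
  rw [h2]
  simp

lemma dz_line {g : Cm n → ℂ} (hg : ContDiff ℝ 1 g) (z : Cm n) (s : ℝ) (t : Cm n) (j : Fin n) :
    dz j (fun t => g (z + s • t)) t = s * dz j g (z + s • t) := by
  simp only [dz_eq, fderiv_line hg]; ring

lemma dzb_line {g : Cm n → ℂ} (hg : ContDiff ℝ 1 g) (z : Cm n) (s : ℝ) (t : Cm n) (j : Fin n) :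
    dzb j (fun t => g (z + s • t)) t = s * dzb j g (z + s • t) := by
  simp only [dzb_eq, fderiv_line hg]; ring

section

variable {δ : ℝ} {η Θ : Cm n → ℝ} (m : Mol δ η Θ)

include m

lemma Mol.hcs : HasCompactSupport η := hcs_of m.zero
lemma Mol.hcsΘ : HasCompactSupport Θ := hcs_of m.thz

lemma Mol.ibp_b {g : Cm n → ℂ} (hg : ContDiff ℝ 1 g) (z : Cm n) (s : ℝ) (j : Fin n) :
    ∫ t, (η t : ℂ) * (t j * g (z + s • t)) = ∫ t, (Θ t : ℂ) * (s * dzb j g (z + s • t)) := by
  have hΘ : ContDiff ℝ 1 fun t => (Θ t : ℂ) := Complex.ofRealCLM.contDiff.comp m.th1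
  have hl : ContDiff ℝ 1 fun t : Cm n => g (z + s • t) := hg.comp (by fun_prop)
  have hcc : HasCompactSupport fun t => (Θ t : ℂ) := m.hcsΘ.comp_left Complex.ofReal_zero
  have h1 := integral_dzb_eq_zero (F := fun t => (Θ t : ℂ) * g (z + s • t)) (hΘ.mul hl)
    hcc.mul_right j
  have h2 : ∀ t, dzb j (fun t => (Θ t : ℂ) * g (z + s • t)) t =
      (Θ t : ℂ) * (s * dzb j g (z + s • t)) - (η t : ℂ) * (t j * g (z + s • t)) := by
    intro t
    rw [dzb_mul (hΘ.differentiable (by norm_num) t) (hl.differentiable (by norm_num) t), m.db,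
      dzb_line hg]
    ring
  simp only [h2] at h1
  have c1 : Continuous (dzb j g) := (contDiff_dzb (m := 0) hg (by norm_num) j).continuous
  have i1 : Integrable fun t => (Θ t : ℂ) * (s * dzb j g (z + s • t)) :=
    (hΘ.continuous.mul (continuous_const.mul
      (c1.comp (by fun_prop)))).integrable_of_hasCompactSupport hcc.mul_right
  have hcc' : HasCompactSupport fun t => (η t : ℂ) := m.hcs.comp_left Complex.ofReal_zero
  have i2 : Integrable fun t => (η t : ℂ) * (t j * g (z + s • t)) :=
    ((Complex.continuous_ofReal.comp m.smooth.continuous).mul ((continuous_apply j).mul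
      (hg.continuous.comp (by fun_prop)))).integrable_of_hasCompactSupport hcc'.mul_right
  rw [integral_sub i1 i2] at h1
  exact (sub_eq_zero.1 h1).symm

lemma Mol.ibp {g : Cm n → ℂ} (hg : ContDiff ℝ 1 g) (z : Cm n) (s : ℝ) (j : Fin n) :
    ∫ t, (η t : ℂ) * (conj (t j) * g (z + s • t)) = ∫ t, (Θ t : ℂ) * (s * dz j g (z + s • t)) := by
  have hΘ : ContDiff ℝ 1 fun t => (Θ t : ℂ) := Complex.ofRealCLM.contDiff.comp m.th1
  have hl : ContDiff ℝ 1 fun t : Cm n => g (z + s • t) := hg.comp (by fun_prop)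
  have hcc : HasCompactSupport fun t => (Θ t : ℂ) := m.hcsΘ.comp_left Complex.ofReal_zero
  have h1 := integral_dz_eq_zero (F := fun t => (Θ t : ℂ) * g (z + s • t)) (hΘ.mul hl)
    hcc.mul_right j
  have h2 : ∀ t, dz j (fun t => (Θ t : ℂ) * g (z + s • t)) t =
      (Θ t : ℂ) * (s * dz j g (z + s • t)) - (η t : ℂ) * (conj (t j) * g (z + s • t)) := by
    intro t
    rw [dz_mul (hΘ.differentiable (by norm_num) t) (hl.differentiable (by norm_num) t), m.d,
      dz_line hg]
    ring
  simp only [h2] at h1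
  have c1 : Continuous (dz j g) := (contDiff_dz (m := 0) hg (by norm_num) j).continuous
  have i1 : Integrable fun t => (Θ t : ℂ) * (s * dz j g (z + s • t)) :=
    (hΘ.continuous.mul (continuous_const.mul
      (c1.comp (by fun_prop)))).integrable_of_hasCompactSupport hcc.mul_right
  have hcc' : HasCompactSupport fun t => (η t : ℂ) := m.hcs.comp_left Complex.ofReal_zero
  have i2 : Integrable fun t => (η t : ℂ) * (conj (t j) * g (z + s • t)) :=
    ((Complex.continuous_ofReal.comp m.smooth.continuous).mul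
      ((Complex.continuous_conj.comp (continuous_apply j)).mul
      (hg.continuous.comp (by fun_prop)))).integrable_of_hasCompactSupport hcc'.mul_right
  rw [integral_sub i1 i2] at h1
  exact (sub_eq_zero.1 h1).symm

end

end Vale.Agent.P284.H513.V
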