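import Vale.Agent.P284.H513.Mol2

/-!
# P284, block V11 (helper513): representation formulas and the basic estimate
-/

open scoped ContDiff Topology ComplexConjugate
open MeasureTheory Set Filter Metric

noncomputable section

namespace Vale.Agent.P284.H513.V

open Vale.Agent.P272.K Vale.Agent.P272.K.INT

variable {n : ℕ}

/-- the parameters `(s, t)`: `0 ≤ s ≤ 1`, `‖t‖ ≤ δ` -/
def KK (n : ℕ) (δ : ℝ) : Set (ℝ × Cm n) := Icc 0 1 ×ˢ closedBall 0 δ

lemma isCompact_KK (n : ℕ) (δ : ℝ) : IsCompact (KK n δ) := isCompact_Icc.prod (isCompact_closedBall _ _)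

lemma measurableSet_KK (n : ℕ) (δ : ℝ) : MeasurableSet (KK n δ) :=
  measurableSet_Icc.prod measurableSet_closedBall

lemma int_KK {E : Type*} [NormedAddCommGroup E] {W : ℝ × Cm n → E} (hW : Continuous W) (δ : ℝ) :
    IntegrableOn W (KK n δ) := hW.continuousOn.integrableOn_compact (isCompact_KK n δ)

/-- the integral over `KK`, first over `t` -/
lemma KK_t {W : ℝ × Cm n → ℂ} (hW : Continuous W) {δ : ℝ} (h0 : ∀ s t, δ ≤ ‖t‖ → W (s, t) = 0) :
    ∫ p in KK n δ, W p = ∫ s in Icc (0 : ℝ) 1, ∫ t, W (s, t) := by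
  rw [KK, Measure.volume_eq_prod, setIntegral_prod _ (by
    rw [← Measure.volume_eq_prod]; exact int_KK hW δ)]
  refine setIntegral_congr_fun measurableSet_Icc fun s _ => ?_
  refine setIntegral_eq_integral_of_forall_compl_eq_zero fun t ht => h0 s t ?_
  rw [mem_closedBall, dist_zero_right] at ht; linarith

/-- the integral over `KK`, first over `s` -/
lemma KK_s {W : ℝ × Cm n → ℂ} (hW : Continuous W) {δ : ℝ} (h0 : ∀ s t, δ ≤ ‖t‖ → W (s, t) = 0) :
    ∫ p in KK n δ, W p = ∫ t, ∫ s in Icc (0 : ℝ) 1, W (s, t) := by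
  have hi : IntegrableOn W (KK n δ) := int_KK hW δ
  have e1 : ∫ p in KK n δ, W p = ∫ t in closedBall (0 : Cm n) δ, ∫ s in Icc (0 : ℝ) 1, W (s, t) := by
    rw [KK, Measure.volume_eq_prod, setIntegral_prod _ (by
      rw [← Measure.volume_eq_prod]; exact hi)]
    refine integral_integral_swap (f := fun s t => W (s, t)) ?_
    have : (volume.restrict (Icc (0 : ℝ) 1)).prod (volume.restrict (closedBall (0 : Cm n) δ)) =
        (volume : Measure (ℝ × Cm n)).restrict (KK n δ) := by
      rw [Measure.prod_restrict, KK, Measure.volume_eq_prod]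
    rw [this]
    exact hi
  rw [e1]
  refine setIntegral_eq_integral_of_forall_compl_eq_zero fun t ht => ?_
  have h1 : ∀ s, W (s, t) = 0 := fun s => h0 s t (by
    rw [mem_closedBall, dist_zero_right] at ht; linarith)
  simp [h1]

/-- **basic estimate** -/
lemma basic {δ : ℝ} {q : Cm n → ℝ} (hq : Continuous q) (hq0 : ∀ t, 0 ≤ q t)
    (hqz : ∀ t, δ ≤ ‖t‖ → q t = 0) {H : Cm n → ℝ} (hH : Continuous H) (hH0 : ∀ y, 0 ≤ H y)
    {A : Cm n → ℂ} {G : Cm n → ℝ × Cm n → ℂ}
    (hA : ∀ z, A z = ∫ p in KK n δ, (q p.2 : ℂ) * G z p)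
    (hG : ∀ z, ∀ p ∈ KK n δ, ‖G z p‖ ^ 2 ≤ H (z + p.1 • p.2)) {c : Cm n} {r R : ℝ}
    (hR : r + δ ≤ R) :
    ∫ z in ball c r, ‖A z‖ ^ 2 ≤ (∫ p in KK n δ, q p.2) ^ 2 * ∫ z in ball c R, H z := by
  set m : ℝ := ∫ p in KK n δ, q p.2 with hm
  have cz : ∀ z : Cm n, Continuous fun p : ℝ × Cm n => z + p.1 • p.2 := fun z => by fun_prop
  have cq : Continuous fun p : ℝ × Cm n => q p.2 := hq.comp continuous_snd
  have hm0 : 0 ≤ m := integral_nonneg fun p => hq0 _
  -- pointwise
  have hpt : ∀ z, ‖A z‖ ^ 2 ≤ m * ∫ p in KK n δ, q p.2 * H (z + p.1 • p.2) := by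
    intro z
    have h1 : ‖A z‖ ≤ ∫ p in KK n δ, q p.2 * Real.sqrt (H (z + p.1 • p.2)) := by
      rw [hA z]
      refine norm_integral_le_of_norm_le (int_KK (cq.mul ((hH.comp (cz z)).sqrt)) δ) ?_
      filter_upwards [ae_restrict_mem (measurableSet_KK n δ)] with p hp
      rw [norm_mul, Complex.norm_real, Real.norm_of_nonneg (hq0 _)]
      exact mul_le_mul_of_nonneg_left (Real.le_sqrt_of_sq_le (hG z p hp)) (hq0 _)
    have h2 := wcs (volume.restrict (KK n δ)) (fun p => q p.2)
      (fun p => Real.sqrt (H (z + p.1 • p.2))) (fun p => hq0 _) (int_KK cq δ)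
      (int_KK (cq.mul ((hH.comp (cz z)).sqrt)) δ)
      (int_KK (cq.mul (((hH.comp (cz z)).sqrt).pow 2)) δ)
    have h3 : ∀ p : ℝ × Cm n, Real.sqrt (H (z + p.1 • p.2)) ^ 2 = H (z + p.1 • p.2) :=
      fun p => Real.sq_sqrt (hH0 _)
    simp only [h3] at h2
    calc ‖A z‖ ^ 2 ≤ (∫ p in KK n δ, q p.2 * Real.sqrt (H (z + p.1 • p.2))) ^ 2 := by
          gcongr
      _ ≤ _ := h2
  -- integrability on the product
  have hcont : Continuous fun x : Cm n × (ℝ × Cm n) => q x.2.2 * H (x.1 + x.2.1 • x.2.2) :=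
    (hq.comp (by fun_prop)).mul (hH.comp (by fun_prop))
  have hint : Integrable (fun x : Cm n × (ℝ × Cm n) => q x.2.2 * H (x.1 + x.2.1 • x.2.2))
      ((volume.restrict (ball c r)).prod (volume.restrict (KK n δ))) := by
    rw [Measure.prod_restrict, ← Measure.volume_eq_prod]
    exact (hcont.continuousOn.integrableOn_compact
      ((isCompact_closedBall c r).prod (isCompact_KK n δ))).mono_set
      (prod_mono ball_subset_closedBall subset_rfl)
  have hHR : IntegrableOn H (ball c R) :=
    (hH.continuousOn.integrableOn_compact (isCompact_closedBall c R)).mono_set ball_subset_closedBall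
  -- translation
  have htr : ∀ p ∈ KK n δ, q p.2 * ∫ z in ball c r, H (z + p.1 • p.2) ≤
      q p.2 * ∫ z in ball c R, H z := by
    intro p hp
    by_cases hp0 : δ ≤ ‖p.2‖
    · rw [hqz _ hp0]; simp
    push Not at hp0
    refine mul_le_mul_of_nonneg_left ?_ (hq0 _)
    have e : ∫ z in ball c r, H (z + p.1 • p.2) = ∫ z in (fun z => z + p.1 • p.2) '' ball c r, H z := by
      have := (measurePreserving_add_right (volume : Measure (Cm n)) (p.1 • p.2)).setIntegral_image_emb
        (MeasurableEquiv.addRight (p.1 • p.2)).measurableEmbedding H (ball c r)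
      exact this.symm
    rw [e]
    refine setIntegral_mono_set hHR (Eventually.of_forall fun z => hH0 z)
      (LE.le.eventuallyLE ?_)
    rintro _ ⟨y, hy, rfl⟩
    rw [mem_ball] at hy
    change dist (y + p.1 • p.2) c < R
    have h1 : ‖p.1 • p.2‖ ≤ δ := by
      have hs := hp.1
      rw [norm_smul, Real.norm_eq_abs, abs_of_nonneg hs.1]
      nlinarith [norm_nonneg p.2, hs.1, hs.2]
    calc dist (y + p.1 • p.2) c ≤ dist (y + p.1 • p.2) y + dist y c := dist_triangle _ _ _
      _ < δ + r := by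
          rw [dist_eq_norm, add_sub_cancel_left]; linarith
      _ ≤ R := by linarith
  calc ∫ z in ball c r, ‖A z‖ ^ 2
      ≤ ∫ z in ball c r, m * ∫ p in KK n δ, q p.2 * H (z + p.1 • p.2) := by
        refine integral_mono_of_nonneg (Eventually.of_forall fun z => by positivity) ?_
          (Eventually.of_forall hpt)
        exact hint.integral_prod_left.const_mul m
    _ = m * ∫ p in KK n δ, ∫ z in ball c r, q p.2 * H (z + p.1 • p.2) := by
        rw [integral_const_mul, integral_integral_swap hint]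
    _ ≤ m * ∫ p in KK n δ, q p.2 * ∫ z in ball c R, H z := by
        refine mul_le_mul_of_nonneg_left ?_ hm0
        refine setIntegral_mono_on hint.integral_prod_right ((int_KK cq δ).mul_const _)
          (measurableSet_KK n δ) fun p hp => ?_
        rw [integral_const_mul]
        exact htr p hp
    _ = m ^ 2 * ∫ z in ball c R, H z := by
        rw [integral_mul_const]; ring

section

variable {δ : ℝ} {η Θ : Cm n → ℝ} (m : Mol δ η Θ)

include m

/-- Taylor formula -/
lemma Mol.taylor {g : Cm n → ℂ} (hg : ContDiff ℝ 1 g) (z : Cm n) :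
    mv η g z - g z = ∫ p in KK n δ, (η p.2 : ℂ) * fderiv ℝ g (z + p.1 • p.2) p.2 := by
  have hη : Continuous η := m.smooth.continuous
  have hg' : Continuous (fderiv ℝ g) := hg.continuous_fderiv (by norm_num)
  have hc : Continuous fun p : ℝ × Cm n => (η p.2 : ℂ) * fderiv ℝ g (z + p.1 • p.2) p.2 := by
    refine (Complex.continuous_ofReal.comp (hη.comp continuous_snd)).mul ?_
    exact (hg'.comp (by fun_prop)).clm_apply continuous_snd
  rw [KK_s hc fun s t ht => by rw [m.zero t ht]; simp]
  have e1 : ∀ t, ∫ s in Icc (0 : ℝ) 1, (η t : ℂ) * fderiv ℝ g (z + s • t) t =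
      (η t : ℂ) * (g (z + t) - g z) := by
    intro t
    rw [integral_const_mul]
    congr 1
    rw [integral_Icc_eq_integral_Ioc, ← intervalIntegral.integral_of_le zero_le_one]
    have h1 : ∀ s ∈ uIcc (0 : ℝ) 1, HasDerivAt (fun s : ℝ => g (z + s • t))
        (fderiv ℝ g (z + s • t) t) s := by
      intro s _
      have h2 : HasDerivAt (fun s : ℝ => z + s • t) t s := by
        simpa using ((hasDerivAt_id s).smul_const t).const_add z
      exact ((hg.differentiable (by norm_num)) (z + s • t)).hasFDerivAt.comp_hasDerivAt s h2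
    rw [intervalIntegral.integral_eq_sub_of_hasDerivAt h1]
    · simp
    · exact Continuous.intervalIntegrable ((hg'.comp (by fun_prop)).clm_apply continuous_const) _ _
  simp only [e1]
  have i0 : Integrable fun t => (η t : ℂ) :=
    (Complex.continuous_ofReal.comp hη).integrable_of_hasCompactSupport
      (m.hcs.comp_left Complex.ofReal_zero)
  have i1 : Integrable fun t => (η t : ℂ) * g (z + t) :=
    ((Complex.continuous_ofReal.comp hη).mul (hg.continuous.comp
      (by fun_prop))).integrable_of_hasCompactSupport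
      (HasCompactSupport.mul_right (m.hcs.comp_left Complex.ofReal_zero))
  have e2 : ∀ t, (η t : ℂ) * (g (z + t) - g z) = (η t : ℂ) * g (z + t) - (η t : ℂ) * g z :=
    fun t => by ring
  simp only [e2]
  rw [integral_sub i1 (i0.mul_const _), integral_mul_const]
  have e3 : ∫ t, (η t : ℂ) = 1 := by
    rw [integral_complex_ofReal, m.one]; simp
  rw [e3, one_mul]
  rfl

end

end Vale.Agent.P284.H513.V
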